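import Vale.Agent.P287D.Gf.St
import Vale.Agent.P287D.Gf.Rs
import Vale.Agent.P287D.Cb.Lg

/-!
# P287D, block TF: a moving log canonical centre with a bounded model is impossible (statements)
-/

open Set

noncomputable section

namespace Vale.Agent.P287D.Tf

variable {K K' : Type} [Field K] [Algebra ℂ K] [Field K'] [Algebra ℂ K']

/-- `Q` is generic and its centre contains the centre of `P` -/
def RLe (φ : K →+* K') (P Q : Pl K') : Prop :=
  Trv φ Q ∧ ∀ b ∈ Algebra.adjoin ℂ (range φ), Cb.Mx Q b → Cb.Mx P b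

/-- the function field of the centre of a generic place -/
def Ce {φ : K →+* K'} {P : Pl K'} (h : Trv φ P) : IntermediateField ℂ P.κ :=
  IntermediateField.adjoin ℂ (range (Gx.hr h))

/-- the residue map to the centre -/
def ps {φ : K →+* K'} {P : Pl K'} (h : Trv φ P) : K →+* Ce h :=
  (Gx.hr h).codRestrict (Ce h) fun f => IntermediateField.subset_adjoin _ _ ⟨f, rfl⟩

open Classical in
/-- the sum of the pull backs of `O(1)` from the factors of a product of lines -/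
def hy {k : ℕ} (x : Fin k → K) : BD K := ∑ i, mx {1, x i}

/-- `K` is the function field of a product of lines, `N` has bounded degrees, and the log
discrepancies of the pairs `-N` are comparable with those of the product -/
structure Sl (k : ℕ) (η C : ℝ) (N : BD K) (x : Fin k → K) : Prop where
  ind : AlgebraicIndependent ℂ x
  gen : IntermediateField.adjoin ℂ (range x) = ⊤
  deg : ∃ Z ∈ Prn K, N + Z ≤ C • hy x
  dis : ∀ f : K, f ≠ 0 → 0 ≤ kap x + dv f + N → ∀ u,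
    η * (1 + (kap x + (2 : ℝ) • hy x) u) ≤ 1 + (kap x + dv f + N) u

/-- the discrepancies of the pair `-N + Δ` after the extension of the constants -/
def ds {n : ℕ} (φ : K →+* K') (y : Fin n → K) (N : BD K) (Δ : BD K') : BD K' :=
  kap (fun i => φ (y i)) + pb φ N - Δ

/-- a generic log canonical place `P`, the only one through its centre, and a second place which
is not klt -/
structure Sta (n : ℕ) (φ : K →+* K') (y : Fin (n + 1) → K) (N : BD K) (ε : ℝ) (Δ : BD K')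
    (P : Pl K') : Prop where
  fk : FF K (n + 1)
  fk' : FF K' (n + 1)
  ext : Ext ⊥ φ
  ind : AlgebraicIndependent ℂ y
  smp : Smp N
  big : Big (pb φ N)
  nn : 0 ≤ kap y + N
  bdy : ∀ Q, On n (pb φ N) Q → ds φ y N 0 Q ≤ 0
  e0 : 0 ≤ ε
  e1 : ε < 1
  rep : Rep (ε • pb φ N) Δ
  trv : Trv φ P
  lc : ds φ y N Δ P = -1
  uniq : ∀ Q, Q ≠ P → RLe φ P Q → -1 < ds φ y N Δ Q
  two : ∃ Q, Q ≠ P ∧ ds φ y N Δ Q ≤ -1

/-- **T36** -/
def T36 : Prop := ∀ (n k : ℕ) (K K' : Type) [Field K] [Algebra ℂ K] [Field K'] [Algebra ℂ K']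
  (φ : K →+* K') (y : Fin (n + 1) → K) (N : BD K) (ε η C : ℝ) (Δ : BD K') (P : Pl K')
  (h : Sta n φ y N ε Δ P) (x : Fin k → Ce h.trv), Sl k η C (pb (ps h.trv) N) x → η ≤ 1 →
    ε * (k * C) < η → False

/-- **TRC**: the trace of an adjoint section of a finite cover -/
def TRC : Prop := ∀ (n : ℕ) (K K' : Type) [Field K] [Algebra ℂ K] [Field K'] [Algebra ℂ K']
  (ι : K →ₐ[ℂ] K') (a : BD K) (P : Pl K) (P' : Pl K') (g : K'), FF K n → FF K' n →
  Lies (ι : K →+* K') P' P → a P = 0 → Cb.Mx P' (g - 1) →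
  (∀ R' R, R' ≠ P' → Lies (ι : K →+* K') R' R → g = 0 ∨ 0 < R'.ord (ι R.t) * a R + R'.ord g) →
  ∃ f : K, f ≠ 0 ∧ P.ord f = 0 ∧ ∀ R, R ≠ P → 0 < a R + R.ord f

/-- **GAU**: Gauss places -/
def GAU : Prop := ∀ (k q : ℕ) (K : Type) [Field K] [Algebra ℂ K] (L : IntermediateField ℂ K)
  (T : Fin k → K) (v : Pl L), FF K (k + q) → FF L q → AlgebraicIndependent L T →
  IntermediateField.adjoin L (range T) = ⊤ → ∃ G : Pl K, Lies (inc L) G v ∧
    G.ord (inc L v.t) = 1 ∧ (∀ i, T i ∈ G.ring) ∧ ∀ p : MvPolynomial (Fin k) L,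
      (∀ m, p.coeff m ∈ v.ring) → Cb.Mx G (MvPolynomial.aeval T p) → ∀ m, Cb.Mx v (p.coeff m)

/-- **PAD**: the horizontal prime divisors of a product of lines -/
def PAD : Prop := ∀ (k q : ℕ) (K : Type) [Field K] [Algebra ℂ K] (L : IntermediateField ℂ K)
  (T : Fin k → K) (C : ℝ) (Z : BD K), FF K (k + q) → FF L q → AlgebraicIndependent L T →
  IntermediateField.adjoin L (range T) = ⊤ → Z ∈ Prn K →
  (∀ w, Hor L w → 0 ≤ (C • hy T + Z) w) →
  ∃ (s : Finset (MvPolynomial (Fin k) L)) (r : MvPolynomial (Fin k) L → ℝ) (Y : BD L),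
    Y ∈ Prn L ∧ (∀ p ∈ s, p ≠ 0 ∧ 0 ≤ r p) ∧ ∑ p ∈ s, r p * p.totalDegree ≤ k * C ∧
    Z = ∑ p ∈ s, r p • dv (MvPolynomial.aeval T p) + pb (inc L) Y

/-- the family of the conjugates of the centre of `P` -/
structure Fam (k q : ℕ) {φ : K →+* K'} {P : Pl K'} (h : Trv φ P) (x : Fin k → Ce h)
    (S : Set (Ce h)) {U Ω : Type} [Field U] [Algebra ℂ U] [Field Ω] [Algebra ℂ Ω]
    (L : IntermediateField ℂ U) (i : U →+* Ce h) (ψ : K →+* U) (X : Fin k → U) (ι : K' →ₐ[ℂ] Ω)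
    (j : U →+* Ω) (P' : Pl Ω) : Prop where
  gf : GF L i
  fu : FF U (k + q)
  fl : FF L q
  fo : FF Ω (k + q)
  fg : L.FG
  ip : ∀ f, i (ψ f) = ps h f
  ix : ∀ a, i (X a) = x a
  sub : S ⊆ range i
  top : IntermediateField.adjoin L (range X) = ⊤
  cp : Cst ψ
  jp : ∀ f, j (ψ f) = ι (φ f)
  jc : ∀ c c', i (algebraMap ℂ U c) = algebraMap ℂ _ c' → j (algebraMap ℂ U c) = algebraMap ℂ Ω c'
  gen : IntermediateField.adjoin ℂ (range j) = ⊤
  lies : Lies (ι : K' →+* Ω) P' P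
  trv : Trv j P'
  res : ∀ a ∈ L, ∀ c, i a = algebraMap ℂ _ c → Cb.Mx P' (j a - algebraMap ℂ Ω c)

/-- **FAM**: the family exists -/
def FAM : Prop := ∀ (n k : ℕ) (K K' : Type) [Field K] [Algebra ℂ K] [Field K'] [Algebra ℂ K']
  (φ : K →+* K') (P : Pl K') (h : Trv φ P) (x : Fin k → Ce h) (S : Set (Ce h)), FF K n →
  FF K' n → Ext ⊥ φ → AlgebraicIndependent ℂ x → IntermediateField.adjoin ℂ (range x) = ⊤ →
  S.Finite → ∃ (q : ℕ) (U Ω : Type) (_ : Field U) (_ : Algebra ℂ U) (_ : Field Ω)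
    (_ : Algebra ℂ Ω) (L : IntermediateField ℂ U) (i : U →+* Ce h) (ψ : K →+* U) (X : Fin k → U)
    (ι : K' →ₐ[ℂ] Ω) (j : U →+* Ω) (P' : Pl Ω), n = k + q ∧ Fam k q h x S L i ψ X ι j P'

end Vale.Agent.P287D.Tf
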