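import Vale.Agent.P287D.Tf.FamA
import Vale.Agent.P287D.Pb.Up
import Vale.Agent.P287D.Tf.St

/-!
# P287D, block TF: the family of the conjugates of a centre
-/

set_option linter.all false

open Set Polynomial Cardinal

noncomputable section

namespace Vale.Agent.P287D.Tf

namespace Fa

theorem alg_mem {F E : Type} [Field F] [Field E] [Algebra F E] {V : ValuationSubring E}
    (h : ∀ f, algebraMap F E f ∈ V) {z : E} (hz : IsAlgebraic F z) : z ∈ V := by
  obtain ⟨p, hp, hpx⟩ : IsIntegral F z := hz.isIntegral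
  have hint : IsIntegral V z :=
    ⟨p.map ((algebraMap F E).codRestrict _ h), hp.map _, by rw [eval₂_map]; exact hpx⟩
  obtain ⟨y, hy⟩ := IsIntegrallyClosed.isIntegral_iff.1 hint
  exact hy ▸ y.2

variable {K K' : Type} [Field K] [Field K'] [Algebra ℂ K'] {n : ℕ}

/-- the constants over which the centre is defined -/
theorem cons {φ : K →+* K'} {P : Pl K'} {M : Type} [Field M] [Algebra ℂ M] (v : M →ₐ[ℂ] P.κ)
    (h : ∀ f, φ f ∈ P.ring) (ψ : K →+* M) (hψ : ∀ f, v (ψ f) = Gx.hr h f) {σ : ℂ →+* ℂ} {γ : ℂ →+* K}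
    (hσ : ∀ c, algebraMap ℂ K' (σ c) = φ (γ c))
    (gen : IntermediateField.adjoin ℂ (range ψ) = ⊤) :
    ∃ (F : Subfield K') (τ : ℂ →+* ℂ), (∀ f ∈ F, f ∈ P.ring) ∧ (∀ f, φ f ∈ F) ∧
      (∀ c, algebraMap ℂ K' (τ c) ∈ F) ∧ (∀ c, σ c ∈ range τ) ∧
      ∀ A : Subfield M, Acl A → (∀ f, ψ f ∈ A) → (∀ c, algebraMap ℂ M (τ c) ∈ A) → ∀ m, m ∈ A := by
  letI : Algebra K M := ψ.toAlgebra
  letI : Algebra K K' := φ.toAlgebra
  letI : Algebra K P.κ := (Gx.hr h).toAlgebra
  letI : Algebra K P.ring := (φ.codRestrict P.ring h).toAlgebra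
  obtain ⟨I, hI⟩ := (AlgebraicIndependent.matroid K M).exists_isBasis (range (algebraMap ℂ M))
  choose b hb using fun a : I => hI.subset a.2
  have hi : AlgebraicIndependent K ((↑) : I → M) := hI.indep
  let z : I → P.ring := fun a => ⟨algebraMap ℂ K' (b a), P.con _⟩
  let ρ : P.ring →ₐ[K] P.κ := ⟨Gm.rdA P, fun _ => rfl⟩
  let w : P.ring →ₐ[K] K' := ⟨P.ring.subtype, fun _ => rfl⟩
  have hz : AlgebraicIndependent K fun a => ρ (z a) := by
    have e : (fun a => ρ (z a)) = (⟨v.toRingHom, hψ⟩ : M →ₐ[K] P.κ) ∘ ((↑) : I → M) :=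
      _root_.funext fun a => ((congrArg v (hb a).symm).trans (v.commutes _)).symm
    exact e ▸ hi.map' v.injective
  let E := IntermediateField.adjoin K (range fun a => w (z a))
  have hE : ∀ f : E, algebraMap E K' f ∈ P.ring := fun f => by
    obtain ⟨p, q, e⟩ := (IntermediateField.mem_adjoin_range_iff K _ _).1 f.2
    change f.1 ∈ _
    rw [e, ← MvPolynomial.comp_aeval_apply, ← MvPolynomial.comp_aeval_apply, div_eq_mul_inv]
    refine mul_mem (Subtype.prop _) ?_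
    by_cases q0 : q = 0
    · simp [q0]
    have h1 : ρ (MvPolynomial.aeval z q) ≠ 0 := fun k => q0 (algebraicIndependent_iff.1 hz q
      (by rw [← MvPolynomial.comp_aeval_apply]; exact k))
    obtain ⟨u, hu⟩ := ((IsLocalRing.residue_ne_zero_iff_isUnit _).1 h1).exists_right_inv
    rw [← eq_inv_of_mul_eq_one_right (congrArg w hu |>.symm.trans (map_mul w _ _) |>.symm.trans
      (map_one w))]
    exact u.2
  let F := (algebraicClosure E K').toSubfield
  have hF : ∀ f ∈ E, f ∈ F := fun f hf => (algebraicClosure E K').algebraMap_mem ⟨f, hf⟩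
  let C := F.comap (algebraMap ℂ K')
  haveI : IsAlgClosed C := ((acl_cl E K').comap _).closed
  have hC : ∀ c, σ c ∈ C := fun c => by
    change algebraMap ℂ K' _ ∈ F
    rw [hσ]
    exact hF _ (E.algebraMap_mem _)
  have h1 : 𝔠 ≤ #C := mk_complex ▸ mk_le_of_injective (σ.codRestrict C hC).injective
  have h2 : #C ≤ 𝔠 := mk_complex ▸ mk_le_of_injective C.subtype.injective
  obtain ⟨e⟩ := IsAlgClosed.ringEquiv_of_equiv_of_charZero (K := C) (L := ℂ)
    (aleph0_lt_continuum.trans_le h1) (Cardinal.eq.1 ((le_antisymm h2 h1).trans mk_complex.symm))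
  have he : ∀ c ∈ C, c ∈ range (C.subtype.comp e.symm.toRingHom) := fun c hc =>
    ⟨e ⟨c, hc⟩, congrArg Subtype.val (e.symm_apply_apply _)⟩
  refine ⟨F, C.subtype.comp e.symm.toRingHom, fun f hf => alg_mem hE
    (mem_algebraicClosure_iff.1 hf), fun f => hF _ (E.algebraMap_mem f), fun c => (e.symm c).2,
    fun c => he _ (hC c), fun A hA h3 h4 m => ?_⟩
  have h5 : ∀ c, algebraMap ℂ M c ∈ A := fun c => by
    have := hI.subset_closure ⟨c, rfl⟩
    rw [AlgebraicIndependent.matroid_closure_eq] at this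
    refine hA.of_sub (S := Algebra.adjoin K I) (fun a ha => ?_) this
    induction ha using Algebra.adjoin_induction with
    | mem a ha =>
      obtain ⟨d, hd⟩ := he (b ⟨a, ha⟩) (hF _ (IntermediateField.subset_adjoin _ _ ⟨⟨a, ha⟩, rfl⟩))
      have := h4 d
      rwa [hd, hb] at this
    | algebraMap r => exact h3 r
    | add a b _ _ ha hb => exact add_mem ha hb
    | mul a b _ _ ha hb => exact mul_mem ha hb
  have h6 : (IntermediateField.adjoin ℂ (range ψ)).toSubfield ≤ A := Subfield.closure_le.2 (by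
    rintro _ (⟨c, rfl⟩ | ⟨f, rfl⟩)
    exacts [h5 c, h3 f])
  exact h6 (gen ▸ IntermediateField.mem_top : m ∈ IntermediateField.adjoin ℂ (range ψ))

/-- lifting of the residues to a finite extension -/
theorem lift (hK : FF K' n) {P : Pl K'} {F U : Type} [Field F] [Field U] {e : F →+* K'}
    (he : ∀ f, e f ∈ P.ring) (i : U →+* P.κ) {G : Set U} (hG : G.Finite)
    (alg : ∀ g ∈ G, ∃ p : F[X], p ≠ 0 ∧ p.eval₂ (Gx.hr he) (i g) = 0)
    (gen : ∀ A : Subfield U, G ⊆ A → (∀ u, i u ∈ range (Gx.hr he) → u ∈ A) → ∀ u, u ∈ A) :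
    ∃ (Ω : Type) (_ : Field Ω) (_ : Algebra ℂ Ω) (ι : K' →ₐ[ℂ] Ω) (j : U →+* Ω) (P' : Pl Ω),
      FF Ω n ∧ Lies (ι : K' →+* Ω) P' P ∧ (∀ u, j u ∈ P'.ring) ∧
      (∀ u f, i u = Gx.hr he f → j u = ι (e f)) ∧
      ∀ u c, i u = algebraMap ℂ P.κ c → Cb.Mx P' (j u - algebraMap ℂ Ω c) := by
  choose! p p0 hp using alg
  let q : F[X] := ∏ g ∈ hG.toFinset, p g
  have q0 : q ≠ 0 := Finset.prod_ne_zero_iff.2 fun g hg => p0 g (hG.mem_toFinset.1 hg)
  let Ω := (q.map e).SplittingField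
  obtain ⟨R, hR⟩ := Pb.up_fin (K' := Ω) P
  letI : Algebra F Ω := ((algebraMap K' Ω).comp e).toAlgebra
  have h1 : ∀ f : algebraicClosure F Ω, algebraMap _ Ω f ∈ R.ring := fun f =>
    alg_mem (F := F) (fun a => (hR _).1 (he a)) (mem_algebraicClosure_iff.1 f.2)
  have h2 : ∀ f, Gx.hr h1 (algebraMap F _ f) = hR.κ (Gx.hr he f) := fun _ => rfl
  have h3 : (q.map (algebraMap F (algebraicClosure F Ω))).Splits := by
    have := SplittingField.splits (q.map e)
    rw [Polynomial.map_map] at this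
    exact IntermediateField.splits_of_splits this fun _ hx =>
      (isAlgebraic_of_mem_rootSet hx).isIntegral
  have h4 : ∀ g ∈ G, hR.κ (i g) ∈ (Gx.hr h1).range := fun g hg => by
    refine h3.mem_range_of_isRoot (Polynomial.map_ne_zero q0) ?_
    rw [IsRoot, Polynomial.map_map, eval_map, show (Gx.hr h1).comp (algebraMap F _) =
      hR.κ.comp (Gx.hr he) from RingHom.ext h2, ← hom_eval₂,
      eval₂_finset_prod, Finset.prod_eq_zero (hG.mem_toFinset.2 hg) (hp g hg), map_zero]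
  obtain ⟨j, hj⟩ := fac (hR.κ.comp i) (Gx.hr h1) (gen ((Gx.hr h1).fieldRange.comap (hR.κ.comp i))
    h4 (by
      rintro u ⟨f, hf⟩
      exact ⟨algebraMap F _ f, (h2 f).trans (congrArg _ hf)⟩))
  refine ⟨Ω, inferInstance, inferInstance, IsScalarTower.toAlgHom ℂ K' Ω,
    (algebraMap _ Ω).comp j, R, ?_, hR, fun u => h1 _, fun u f k => ?_, fun u c k => ?_⟩
  · have := hK.ess
    have : Algebra.EssFiniteType ℂ Ω := .comp ℂ K' Ω
    refine Gm.ff_of_ess ?_
    rw [← trdeg_add_eq ℂ K' (A := Ω), hK.trdeg, trdeg_eq_zero, add_zero]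
  · rw [RingHom.comp_apply, (Gx.hr h1).injective ((hj u).trans ((congrArg hR.κ k).trans
      (h2 f).symm))]
    rfl
  · refine (Cb.rd_eq_zero (sub_mem (h1 _) (R.con c))).1 ?_
    rw [Cb.rd_sub (h1 _) (R.con c), sub_eq_zero]
    refine (Cb.rd_of (h1 _)).trans ((hj u).trans ((congrArg hR.κ k).trans ?_))
    rw [← Cb.rd_const, hR.isRd _ (P.con c), ← IsScalarTower.algebraMap_apply]

theorem ind_tr {k C E F M N ι : Type} [Field k] [Field C] [Field E] [Field F] [Field M] [Field N]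
    [Algebra C E] [Algebra k M] (τ : k →+* C) (γ : k →+* F) (e : F →+* E) (r : F →+* N)
    (v : M →+* N) (h1 : ∀ c, algebraMap C E (τ c) = e (γ c))
    (h2 : ∀ c, r (γ c) = v (algebraMap k M c)) {z : ι → F} {w : ι → M} (h3 : r ∘ z = v ∘ w)
    (hz : AlgebraicIndependent C (e ∘ z)) : AlgebraicIndependent k w := by
  letI := γ.toAlgebra
  letI := (r.comp γ).toAlgebra
  have := (hz.of_ringHom_of_comp_eq (R := k) τ e τ.injective
    (RingHom.ext h1)).ringHom_of_comp_eq (S := k) (RingHom.id k) r Function.surjective_id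
      r.injective rfl
  exact (h3 ▸ this).of_ringHom_of_comp_eq (RingHom.id k) v Function.injective_id (RingHom.ext h2)

theorem tw {K M : Type} [Field K] [Algebra ℂ K] [Field M] [Algebra ℂ M] (hK : FF K n)
    {y : Fin n → K} (hy : AlgebraicIndependent ℂ y) {ψ : K →+* M} (hc : Cst ψ)
    (hi : AlgebraicIndependent ℂ (ψ ∘ y))
    (top : ∀ A : Subfield M, Acl A → (∀ f, ψ f ∈ A) → (∀ c, algebraMap ℂ M c ∈ A) → ∀ m, m ∈ A) :
    IsTranscendenceBasis ℂ (ψ ∘ y) :=
  hi.isTranscendenceBasis_iff_isAlgebraic.2 ⟨fun m => Gm.mem_Cl.1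
    (top (Gm.Cl (range (ψ ∘ y))).toSubfield (acl_cl _ _) (fun f => Gm.cl_map hc (by
      rintro _ ⟨a, rfl⟩
      exact Gm.sub_Cl ⟨a, rfl⟩) (Gm.cl_basis hK hy (by simp) f))
      (fun c => IntermediateField.algebraMap_mem _ c) m)⟩

theorem top_le {k M : Type} [Field k] [Field M] [Algebra k M] {G : Set M}
    (h : IntermediateField.adjoin k G = ⊤) {A : Subfield M} (h1 : ∀ c, algebraMap k M c ∈ A)
    (h2 : G ⊆ A) (m : M) : m ∈ A := by
  have : (IntermediateField.adjoin k G).toSubfield ≤ A :=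
    Subfield.closure_le.2 (union_subset (range_subset_iff.2 h1) h2)
  exact this (h ▸ IntermediateField.mem_top : m ∈ IntermediateField.adjoin k G)

end Fa

open Fa

/-- **FAM** -/
theorem fam : FAM := by
  intro n k K K' _ _ _ _ φ P h x S hK hK' ext hx gen hS
  obtain ⟨σ, hσ⟩ := Cst.exists_cst (φ := φ) fun c =>
    ext.cst _ (IntermediateField.algebraMap_mem _ c)
  obtain ⟨F, τ, f1, f2, f3, f4, f5⟩ := cons (Ce h).val h (ps h) (fun _ => rfl) hσ (adj_top _)
  obtain ⟨y, hy, -⟩ := id hK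
  obtain ⟨s, hs⟩ := (IntermediateField.fg_top_iff (F := ℂ) (E := K)).2 hK.ess
  have f0 : ∀ f : F, F.subtype f ∈ P.ring := fun f => f1 f f.2
  have r1 : ∀ f, Gx.hr f0 ⟨φ f, f2 f⟩ = (Ce h).val (ps h f) := fun _ => rfl
  have r2 : ∀ c, Gx.hr f0 ⟨_, f3 c⟩ = (Ce h).val (algebraMap ℂ _ (τ c)) := fun _ => rfl
  have hc : ∀ c, ∃ d, algebraMap ℂ _ (τ d) = ps h (algebraMap ℂ K c) := fun c => by
    obtain ⟨d, hd⟩ := f4 c
    refine ⟨d, Subtype.ext ?_⟩
    rw [hd]
    exact (Cb.rd_const _).symm.trans ((congrArg P.rd (hσ c)).trans (Gx.hr_apply h _).symm)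
  have hz : AlgebraicIndependent ℂ fun a => φ (y a) := Pb.dis_alg ext
    (hy.ringHom_of_comp_eq (algebraMap ℂ (⊥ : IntermediateField ℂ K)) (RingHom.id K)
      (IntermediateField.botEquiv ℂ K).symm.surjective Function.injective_id rfl)
  have hb := @tw n K (Ce h) _ _ _ ((algebraMap ℂ (Ce h)).comp τ).toAlgebra hK y hy (ps h) hc
    (@ind_tr ℂ ℂ K' F (Ce h) P.κ _ _ _ _ _ _ _ _ ((algebraMap ℂ (Ce h)).comp τ).toAlgebra τ
      (((algebraMap ℂ K').comp τ).codRestrict F f3) F.subtype (Gx.hr f0) (Ce h).val.toRingHom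
      (fun _ => rfl) r2 (fun a => ⟨_, f2 (y a)⟩) _ rfl hz) f5
  obtain ⟨q, U, _, _, L, i, X, G, rfl, fu, fl, fg, ix, sub, top, hG, gG, ic, g1, g2, g3⟩ :=
    @core ℂ (Ce h) _ _ τ.toAlgebra _ ((algebraMap ℂ (Ce h)).comp τ).toAlgebra
      (@IsScalarTower.of_algebraMap_eq ℂ ℂ (Ce h) _ _ _ τ.toAlgebra _
        ((algebraMap ℂ (Ce h)).comp τ).toAlgebra fun _ => rfl) k n x hx gen _ hb _
      (hS.union (s.finite_toSet.image (ps h)))
  replace ic : ∀ c, i (algebraMap ℂ U c) = algebraMap ℂ _ (τ c) := ic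
  obtain ⟨ψ, ip⟩ := fac (ps h) i (top_le hs (A := i.fieldRange.comap (ps h))
    (fun c => let ⟨d, hd⟩ := hc c; ⟨_, (ic d).trans hd⟩) fun f hf => sub (.inr ⟨f, hf, rfl⟩))
  obtain ⟨Ω, _, _, ι, j, R, fo, l1, l2, l3, l4⟩ := lift hK' f0 ((Ce h).val.toRingHom.comp i) hG
    (fun g _ => by
      letI := (Gx.hr f0).toAlgebra
      exact mem_algebraicClosure_iff.1 (f5 _ ((acl_cl F P.κ).comap (Ce h).val.toRingHom)
        (fun f => (algebraicClosure F P.κ).algebraMap_mem ⟨_, f2 f⟩)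
        (fun c => (algebraicClosure F P.κ).algebraMap_mem ⟨_, f3 c⟩) (i g)))
    fun A h1 h2 => top_le gG (fun c => h2 _ ⟨_, (r2 c).trans (congrArg _ (ic c).symm)⟩) h1
  have jp : ∀ f, j (ψ f) = ι (φ f) := fun f => l3 _ ⟨_, f2 f⟩ (congrArg (Ce h).val (ip f))
  let W := IntermediateField.adjoin ℂ (range j)
  have hι : ∀ f, ι f ∈ W := fun f => by
    have : Subfield.closure (range φ ∪ range (algebraMap ℂ K')) ≤
        W.toSubfield.comap ι.toRingHom := Subfield.closure_le.2 (by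
      rintro _ (⟨f, rfl⟩ | ⟨c, rfl⟩)
      · exact IntermediateField.subset_adjoin ℂ _ ⟨_, jp f⟩
      · exact (congrArg (· ∈ W) (ι.commutes c)).mpr (W.algebraMap_mem c))
    exact this (ext.gen ▸ Subfield.mem_top f)
  let ι' : K' →ₐ[ℂ] W := ⟨ι.toRingHom.codRestrict W hι, fun c => Subtype.ext (ι.commutes c)⟩
  obtain ⟨m, hm, fw⟩ := Gm.ff_sub fo W
  obtain rfl : m = k + q := le_antisymm hm (by
    have := trdeg_le_of_injective ι' ι'.injective
    rw [hK'.trdeg, fw.trdeg] at this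
    exact_mod_cast this)
  obtain ⟨Q, hQ⟩ := Pb.down fw fo R
  refine ⟨q, U, W, inferInstance, inferInstance, inferInstance, inferInstance, L, i, ψ, X, ι',
    j.codRestrict W fun u => IntermediateField.subset_adjoin _ _ ⟨u, rfl⟩, Q, rfl,
    ⟨⟨g1, eq_top_iff.2 fun a _ => top_le gen (fun c => Subfield.subset_closure (.inr ⟨c, rfl⟩))
      (range_subset_iff.2 fun a => Subfield.subset_closure (.inl ⟨_, ix a⟩)) a, g2⟩, g3⟩, fu, fl, fw,
    fg, ip, ix, subset_union_left.trans sub, top, fun c => ?_, fun f => Subtype.ext (jp f),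
    fun c c' e => Subtype.ext ?_, adj_top _, fun f => (l1 f).trans (hQ (ι' f)).symm,
    fun u => (hQ _).2 (l2 u), fun a _ c e => ?_⟩
  · obtain ⟨d, hd⟩ := hc c
    exact ⟨d, i.injective ((ic d).trans (hd.trans (ip _).symm))⟩
  · obtain rfl : τ c = c' := (algebraMap ℂ (Ce h)).injective ((ic c).symm.trans e)
    exact (l3 _ ⟨_, f3 c⟩ (congrArg (Ce h).val (ic c))).trans (ι.commutes _)
  · exact Cb.mx_iff.2 ((Cb.mx_iff.1 (l4 a c (congrArg (Ce h).val e))).imp
      (fun z => Subtype.ext z) (hQ.ord_pos_iff _).1)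

end Vale.Agent.P287D.Tf
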