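import Vale.Agent.P287D.Gm.Cl
import Vale.Agent.P287D.Gf.One

/-!
# P287D, block TF: the family of the conjugates, the descent of a rational function field
-/

set_option linter.all false

open Set Polynomial TensorProduct

noncomputable section

namespace Vale.Agent.P287D.Tf.Fa

theorem fac {A B D : Type} [Field A] [Field B] [Field D] (f : A →+* D) (g : B →+* D)
    (h : ∀ a, f a ∈ range g) : ∃ e : A →+* B, ∀ a, g (e a) = f a := by
  choose σ hσ using h
  have hi := g.injective
  exact ⟨{ toFun := σ
           map_one' := hi (by simp [hσ])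
           map_mul' := fun a b => hi (by simp [hσ])
           map_zero' := hi (by simp [hσ])
           map_add' := fun a b => hi (by simp [hσ]) }, hσ⟩

/-- algebraically closed subfields -/
def Acl {M : Type} [Field M] (A : Subfield M) : Prop := ∀ z, IsAlgebraic A z → z ∈ A

theorem Acl.comap {M N : Type} [Field M] [Field N] {A : Subfield N} (h : Acl A) (v : M →+* N) :
    Acl (A.comap v) := fun z hz => h (v z) (hz.ringHom_of_comp_eq
      ((v.comp (A.comap v).subtype).codRestrict A fun a => a.2) v (RingHom.injective _) rfl)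

theorem acl_cl (F N : Type) [Field F] [Field N] [Algebra F N] :
    Acl (algebraicClosure F N).toSubfield := fun z hz => by
  have h1 : IsAlgebraic (algebraicClosure F N) z := hz
  exact mem_algebraicClosure_iff.2 (h1.restrictScalars F)

theorem Acl.closed {N : Type} [Field N] [IsAlgClosed N] {A : Subfield N} (h : Acl A) :
    IsAlgClosed A := IsAlgClosed.of_exists_root _ fun p hp hi => by
  obtain ⟨z, hz⟩ := IsAlgClosed.exists_aeval_eq_zero N p (degree_pos_of_irreducible hi).ne'
  refine ⟨⟨z, h z ⟨p, hp.ne_zero, hz⟩⟩, A.subtype.injective ?_⟩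
  rw [map_zero, ← eval₂_at_apply]
  exact hz

theorem Acl.of_sub {k N : Type} [Field k] [Field N] [Algebra k N] {A : Subfield N} (h : Acl A)
    {S : Subalgebra k N} (hS : ∀ a ∈ S, a ∈ A) {z : N} (hz : IsAlgebraic S z) : z ∈ A :=
  h z (hz.ringHom_of_comp_eq (S.val.toRingHom.codRestrict A fun a => hS a a.2) (RingHom.id N)
    (fun a b e => Subtype.ext (congrArg Subtype.val e :)) rfl)

theorem adj_top {k M ι : Type} [Field k] [Field M] [Algebra k M] (g : ι → M) :
    IntermediateField.adjoin k (range fun i => (⟨g i, IntermediateField.subset_adjoin _ _ ⟨i, rfl⟩⟩ :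
      IntermediateField.adjoin k (range g))) = ⊤ :=
  IntermediateField.lift_injective _ (by
    rw [IntermediateField.lift_adjoin, IntermediateField.lift_top, ← range_comp]; rfl)

/-- purely transcendental extensions are linearly disjoint from the constants -/
theorem dis {L U C M ι τ : Type} [Field L] [Field U] [Field C] [Field M] [Algebra L U] [Algebra L C]
    [Algebra U M] [Algebra C M] [Algebra L M] [IsScalarTower L U M] [IsScalarTower L C M]
    [Fintype τ] {X : ι → U} (hX : IntermediateField.adjoin L (range X) = ⊤)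
    (hx : AlgebraicIndependent C fun i => algebraMap U M (X i)) {v : τ → U}
    (hv : LinearIndependent L v) : LinearIndependent C fun i => algebraMap U M (v i) := by
  classical
  have h1 : ∀ i, ∃ p q : MvPolynomial ι L, v i = MvPolynomial.aeval X p / MvPolynomial.aeval X q :=
    fun i => (IntermediateField.mem_adjoin_range_iff L X _).1 (hX ▸ IntermediateField.mem_top)
  choose p q h using h1
  have q0 : ∀ i, MvPolynomial.aeval X (q i) ≠ 0 := fun i e => hv.ne_zero i (by rw [h, e, div_zero])
  let D : U := ∏ i, MvPolynomial.aeval X (q i)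
  have D0 : D ≠ 0 := Finset.prod_ne_zero_iff.2 fun i _ => q0 i
  let r : τ → MvPolynomial ι L := fun i => p i * ∏ j ∈ Finset.univ.erase i, q j
  have hr : ∀ i, MvPolynomial.aeval X (r i) = D * v i := fun i => by
    rw [h, map_mul, map_prod, show D = _ from
      (Finset.mul_prod_erase _ _ (Finset.mem_univ i)).symm]
    field_simp [q0 i]
  have h2 : LinearIndependent L r := by
    refine LinearIndependent.of_comp (MvPolynomial.aeval X).toLinearMap ?_
    have := hv.map' (LinearMap.mulLeft L D)
      (LinearMap.ker_eq_bot.2 (mul_right_injective₀ D0))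
    have e : (MvPolynomial.aeval X).toLinearMap ∘ r = LinearMap.mulLeft L D ∘ v :=
      _root_.funext hr
    exact e ▸ this
  have h3 := ((Module.Flat.linearIndependent_one_tmul (S := C) h2).map'
    (MvPolynomial.algebraTensorAlgEquiv L C).toLinearEquiv.toLinearMap
    (LinearEquiv.ker _)).map' (MvPolynomial.aeval fun i => algebraMap U M (X i)).toLinearMap
      (LinearMap.ker_eq_bot.2 hx)
  refine LinearIndependent.of_comp (LinearMap.mulLeft C (algebraMap U M D)) ?_
  refine (congrArg (fun w : τ → M => LinearIndependent C w) (_root_.funext fun i => ?_)).mp h3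
  change MvPolynomial.aeval (fun i => algebraMap U M (X i))
    (MvPolynomial.algebraTensorAlgEquiv L C (1 ⊗ₜ r i)) = algebraMap U M D * algebraMap U M (v i)
  rw [← map_mul, ← hr, MvPolynomial.algebraTensorAlgEquiv_tmul, one_smul,
    MvPolynomial.aeval_map_algebraMap, ← MvPolynomial.aeval_algebraMap_apply]
  rfl

/-- the descent of `C(x)` to a function field -/
theorem core {C M : Type} [Field C] [Field M] [Algebra ℂ C] [Algebra C M] [Algebra ℂ M]
    [IsScalarTower ℂ C M] {k n : ℕ} {x : Fin k → M} (hx : AlgebraicIndependent C x)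
    (gen : IntermediateField.adjoin C (range x) = ⊤) {y : Fin n → M}
    (hy : IsTranscendenceBasis ℂ y) {T : Set M} (hT : T.Finite) :
    ∃ (q : ℕ) (U : Type) (_ : Field U) (_ : Algebra ℂ U) (L : IntermediateField ℂ U) (i : U →+* M)
      (X : Fin k → U) (G : Set U), n = k + q ∧ FF U n ∧ FF L q ∧ L.FG ∧ (∀ a, i (X a) = x a) ∧
      T ⊆ range i ∧ IntermediateField.adjoin L (range X) = ⊤ ∧ G.Finite ∧
      IntermediateField.adjoin ℂ G = ⊤ ∧ (∀ c, i (algebraMap ℂ U c) = algebraMap ℂ M c) ∧
      (∀ a ∈ L, i a ∈ range (algebraMap C M)) ∧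
      (∀ (m : ℕ) (v : Fin m → U), LinearIndependent L v → LinearIndependent C fun a => i (v a)) ∧
      ∀ c : C, ∃ p : L[X], p ≠ 0 ∧ p.eval₂ (i.comp (algebraMap L U)) (algebraMap C M c) = 0 := by
  classical
  obtain ⟨Λ, hΛ⟩ : ∃ Λ : Finset C, T ∪ range y ⊆ IntermediateField.adjoin ℂ
      (range (Sum.elim (fun c : Λ => algebraMap C M c) x)) := by
    have h1 : ∀ t : M, ∃ p q : MvPolynomial (Fin k) C,
        t = MvPolynomial.aeval x p / MvPolynomial.aeval x q := fun t =>
      (IntermediateField.mem_adjoin_range_iff C x _).1 (gen ▸ IntermediateField.mem_top)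
    choose p q h using h1
    have hf := hT.union (finite_range y)
    refine ⟨hf.toFinset.biUnion fun t => (p t).coeffs ∪ (q t).coeffs, fun t ht => ?_⟩
    set Λ := hf.toFinset.biUnion fun t => (p t).coeffs ∪ (q t).coeffs
    have h2 : ∀ r : MvPolynomial (Fin k) C, r.coeffs ⊆ Λ → MvPolynomial.aeval x r ∈
        IntermediateField.adjoin ℂ (range (Sum.elim (fun c : Λ => algebraMap C M c) x)) :=
      fun r hr => by
        rw [MvPolynomial.aeval_def, MvPolynomial.eval₂_eq]
        refine sum_mem fun d hd => mul_mem (IntermediateField.subset_adjoin _ _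
          ⟨.inl ⟨_, hr (MvPolynomial.coeff_mem_coeffs d (MvPolynomial.mem_support_iff.1 hd))⟩,
            rfl⟩) (prod_mem fun a _ => pow_mem ?_ _)
        exact IntermediateField.subset_adjoin _ _ ⟨.inr a, rfl⟩
    rw [h t]
    exact div_mem (h2 _ fun c hc => Finset.mem_biUnion.2
      ⟨t, hf.mem_toFinset.2 ht, Finset.mem_union_left _ hc⟩) (h2 _ fun c hc => Finset.mem_biUnion.2
      ⟨t, hf.mem_toFinset.2 ht, Finset.mem_union_right _ hc⟩)
  set U := IntermediateField.adjoin ℂ (range (Sum.elim (fun c : Λ => algebraMap C M c) x))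
  let g : Λ ⊕ Fin k → U := fun a => ⟨_, IntermediateField.subset_adjoin _ _ ⟨a, rfl⟩⟩
  have hg : IntermediateField.adjoin ℂ (range g) = ⊤ := adj_top _
  let L : IntermediateField ℂ U := IntermediateField.adjoin ℂ (range fun c => g (.inl c))
  have hL : ∀ a ∈ L, U.val a ∈ range (algebraMap C M) := fun a ha => by
    have : L ≤ (IsScalarTower.toAlgHom ℂ C M).fieldRange.comap U.val :=
      IntermediateField.adjoin_le_iff.2 (by rintro _ ⟨c, rfl⟩; exact ⟨c, rfl⟩)
    exact this ha
  have top : IntermediateField.adjoin L (range fun a => g (.inr a)) = ⊤ := by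
    refine IntermediateField.restrictScalars_injective ℂ (eq_top_iff.2 (hg ▸ ?_))
    refine IntermediateField.adjoin_le_iff.2 ?_
    rintro _ ⟨c | a, rfl⟩
    · exact (IntermediateField.adjoin L _).algebraMap_mem
        ⟨_, IntermediateField.subset_adjoin _ _ ⟨c, rfl⟩⟩
    · exact IntermediateField.subset_adjoin L _ ⟨a, rfl⟩
  have fu : FF U n := by
    have : Algebra.EssFiniteType ℂ U := IntermediateField.fg_top_iff.1
      (hg ▸ IntermediateField.fg_adjoin_of_finite (finite_range g))
    refine Gm.ff_of_ess (le_antisymm ?_ ?_)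
    · simpa [← hy.cardinalMk_eq_trdeg] using trdeg_le_of_injective U.val U.val.injective
    · simpa using (AlgebraicIndependent.of_comp (x := fun a => (⟨y a, hΛ (.inr ⟨a, rfl⟩)⟩ : U))
        U.val hy.1).cardinalMk_le_trdeg
  obtain ⟨q, -, fl⟩ := Gm.ff_sub fu L
  obtain ⟨e, he⟩ := fac (algebraMap L M) (algebraMap C M) fun a => hL a a.2
  letI := e.toAlgebra
  haveI : IsScalarTower L C M := IsScalarTower.of_algebraMap_eq fun a => (he a).symm
  haveI : IsScalarTower ℂ L C := IsScalarTower.of_algebraMap_eq fun a => (algebraMap C M).injective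
    (by rw [← IsScalarTower.algebraMap_apply]; exact (he (algebraMap ℂ L a)).symm)
  have bas : ∀ {A B : Type} [Field A] [Field B] [Algebra A B] {z : Fin k → B},
      AlgebraicIndependent A z → IntermediateField.adjoin A (range z) = ⊤ →
      Algebra.trdeg A B = k := fun {A B} _ _ _ z h1 h2 => by
    have : IsTranscendenceBasis A z := h1.isTranscendenceBasis_iff_isAlgebraic.2
      (IntermediateField.isAlgebraic_adjoin_iff_top.1 (h2 ▸ ⟨fun a =>
        isAlgebraic_algebraMap (⟨a, trivial⟩ : (⊤ : IntermediateField A B))⟩))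
    rw [← this.cardinalMk_eq_trdeg, Cardinal.mk_fin]
  have t1 := trdeg_add_eq ℂ L (A := U)
  rw [fl.trdeg, fu.trdeg, bas (AlgebraicIndependent.of_comp (x := fun a => g (.inr a))
    (IsScalarTower.toAlgHom L U M) (hx.restrictScalars (algebraMap L C).injective)) top] at t1
  have t2 := trdeg_add_eq ℂ C (A := M)
  rw [bas hx gen, ← hy.cardinalMk_eq_trdeg, Cardinal.mk_fin, ← t1, ← trdeg_add_eq ℂ L (A := C),
    fl.trdeg, Cardinal.add_nat_inj, add_comm, ← zero_add (q : Cardinal), ← add_assoc, add_zero,
    Cardinal.add_nat_inj, trdeg_eq_zero_iff] at t2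
  refine ⟨q, U, inferInstance, inferInstance, L, algebraMap U M, fun a => g (.inr a), range g,
    by exact_mod_cast t1.symm.trans (add_comm _ _), fu, fl,
    IntermediateField.fg_adjoin_of_finite (finite_range _), fun _ => rfl,
    fun t ht => ⟨⟨t, hΛ (.inl ht)⟩, rfl⟩, top, finite_range g, hg, fun _ => rfl, hL,
    fun m v hv => dis top hx hv, fun c => ?_⟩
  obtain ⟨p, p0, hp⟩ := (t2.isAlgebraic c).algebraMap (A := M)
  exact ⟨p, p0, hp⟩

end Vale.Agent.P287D.Tf.Fa
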