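import Vale.Agent.P287D.Tf.St
import Vale.Agent.P287D.Pb.Gau

/-!
# P287D, block TF: Gauss places
-/

open Set MvPolynomial IsLocalRing

noncomputable section

namespace Vale.Agent.P287D.Tf

/-- **GAU** -/
theorem gau : GAU := fun k _ K _ _ L T v _ _ hy hg => by
  obtain ⟨G, h, e, m, i, -⟩ := exists_gauss hy hg v
  refine ⟨G, h, e, m, fun p hp hG n => ?_⟩
  obtain ⟨q, rfl⟩ : p ∈ range (map v.ring.subtype) := by
    rw [mem_range_map_iff_coeffs_subset]
    intro c hc
    obtain ⟨n, -, rfl⟩ := mem_coeffs_iff.1 hc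
    exact ⟨⟨_, hp n⟩, rfl⟩
  let a : MvPolynomial (Fin k) v.ring →+* G.ring := eval₂Hom (Pb.rh h) fun i => ⟨T i, m i⟩
  have h1 : (a q : K) = aeval T (map v.ring.subtype q) := by
    rw [aeval_def, eval₂_map]
    exact eval₂_comp_left G.ring.subtype _ _ q
  have h2 : residue G.ring (a q) = eval₂ h.κ (fun i => G.rd (T i)) (map (residue v.ring) q) := by
    rw [funext fun i => Cb.rd_of (m i)]
    exact (eval₂_comp_left (residue G.ring) _ _ q).trans
      (eval₂_map (residue v.ring) _ (Pb.rm h) q).symm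
  rw [← h1, ← Cb.rd_eq_zero (a q).2, Cb.rd_of (a q).2] at hG
  have h3 : residue v.ring (q.coeff n) = 0 := (coeff_map (residue v.ring) q n).symm.trans
    (congrArg (coeff n) (i _ (h2.symm.trans hG)))
  rw [← Cb.rd_eq_zero (hp n), Cb.rd_of (hp n)]
  refine Eq.trans ?_ h3
  exact congrArg _ (Subtype.ext (coeff_map _ _ _))

end Vale.Agent.P287D.Tf
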