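import Vale.Agent.P287D.Tf.St
import Vale.Agent.P287D.On.Val
import Vale.Agent.P287D.Va.Fld

/-!
# P287D, block TF: the horizontal divisors of a product of lines
-/

set_option linter.unusedSectionVars false

open Set MvPolynomial
open Vale.Agent.P297Z

noncomputable section

namespace Vale.Agent.P287D.Tf

variable {n k : ℕ} {K : Type} [Field K] [Algebra ℂ K]

namespace Pa

variable {F : Type} [Field F] [Algebra F K] {T : Fin k → K}

/-- the valuation ring of the degree -/
def dgr (hg : IntermediateField.adjoin F (range T) = ⊤) : ValuationSubring K where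
  carrier := {z | ∃ a b : MvPolynomial (Fin k) F, b ≠ 0 ∧ a.totalDegree ≤ b.totalDegree ∧
    z * aeval T b = aeval T a}
  mul_mem' := by
    rintro x y ⟨a, b, h1, h2, h3⟩ ⟨c, d, h4, h5, h6⟩
    refine ⟨a * c, b * d, mul_ne_zero h1 h4, (totalDegree_mul _ _).trans ?_, ?_⟩
    · rw [totalDegree_mul_of_isDomain h1 h4]; omega
    · rw [map_mul, map_mul, ← h3, ← h6]; ring
  one_mem' := ⟨1, 1, one_ne_zero, le_rfl, one_mul _⟩
  add_mem' := by
    rintro x y ⟨a, b, h1, h2, h3⟩ ⟨c, d, h4, h5, h6⟩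
    refine ⟨a * d + c * b, b * d, mul_ne_zero h1 h4, (totalDegree_add _ _).trans ?_, ?_⟩
    · have := totalDegree_mul a d
      have := totalDegree_mul c b
      rw [totalDegree_mul_of_isDomain h1 h4]; omega
    · rw [map_add, map_mul, map_mul, map_mul, ← h3, ← h6]; ring
  zero_mem' := ⟨0, 1, one_ne_zero, by simp, by simp⟩
  neg_mem' := by
    rintro x ⟨a, b, h1, h2, h3⟩
    exact ⟨-a, b, h1, by rwa [totalDegree_neg], by rw [map_neg, ← h3, neg_mul]⟩
  mem_or_inv_mem' z := by
    obtain ⟨r, s, rfl⟩ := (IntermediateField.mem_adjoin_range_iff F T z).1 (hg ▸ trivial)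
    by_cases h : aeval T r / aeval T s = 0
    · exact .inl ⟨0, 1, one_ne_zero, by simp, by simp [h]⟩
    obtain ⟨h1, h2⟩ := not_or.1 (mt div_eq_zero_iff.2 h)
    rcases le_total r.totalDegree s.totalDegree with e | e
    · exact .inl ⟨r, s, fun k => h2 (by simp [k]), e, div_mul_cancel₀ _ h2⟩
    · exact .inr ⟨s, r, fun k => h1 (by simp [k]), e, by rw [inv_div, div_mul_cancel₀ _ h1]⟩

variable [Algebra ℂ F] [IsScalarTower ℂ F K]

/-- a place at infinity -/
theorem exists_inf (hK : FF K n) (hy : AlgebraicIndependent F T)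
    (hg : IntermediateField.adjoin F (range T) = ⊤) (i : Fin k) {s : Set (MvPolynomial (Fin k) F)}
    (hs : s.Finite) : ∃ (P : Pl K) (e : ℤ), 0 < e ∧ (∀ a, algebraMap F K a ∈ P.ring) ∧
      ∀ p ∈ s, p ≠ 0 → P.ord (aeval T p) = -(e * p.totalDegree) := by
  have ne : ∀ p : MvPolynomial (Fin k) F, p ≠ 0 → aeval T p ≠ 0 := fun p h e =>
    h (hy (e.trans (map_zero _).symm))
  have t0 : T i ≠ 0 := by simpa using ne (X i) (X_ne_zero i)
  have d : ∀ m : ℕ, (X i ^ m : MvPolynomial (Fin k) F).totalDegree = m := totalDegree_X_pow i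
  let S : Set K := insert (T i)⁻¹ ((fun p => aeval T p * (T i)⁻¹ ^ p.totalDegree) '' s)
  have hV : ∀ a ∈ Algebra.adjoin F S, a ∈ dgr hg := fun a ha => by
    induction ha using Algebra.adjoin_induction with
    | mem x hx =>
      rcases hx with rfl | ⟨p, -, rfl⟩
      · exact ⟨1, X i, X_ne_zero i, by simp, by simp [t0]⟩
      · exact ⟨p, X i ^ p.totalDegree, pow_ne_zero _ (X_ne_zero i), (d _).ge, by simp [t0]⟩
    | algebraMap r => exact ⟨C r, 1, one_ne_zero, by simp, by simp⟩
    | add _ _ _ _ a b => exact add_mem a b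
    | mul _ _ _ _ a b => exact mul_mem a b
  have h0 : (T i)⁻¹⁻¹ ∉ dgr hg := by
    rintro ⟨a, b, h1, h2, h3⟩
    obtain rfl : X i * b = a := hy (by simpa using h3)
    rw [totalDegree_mul_of_isDomain (X_ne_zero i) h1, totalDegree_X] at h2
    omega
  have m0 : (T i)⁻¹ ∈ Algebra.adjoin F S := Algebra.subset_adjoin (mem_insert _ _)
  obtain ⟨P, h1, h2⟩ := On.apx hK (dgr hg)
    (Subalgebra.fg_def.2 ⟨S, (hs.image _).insert _, rfl⟩) hV ⟨_, m0, h0⟩
  refine ⟨P, P.ord (T i)⁻¹, Pl.ord_pos_of_inv_notMem _ (mt (h2 _ m0).1 h0),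
    fun a => h1 _ (Subalgebra.algebraMap_mem _ a), fun p hp p0 => ?_⟩
  have m1 : aeval T p * (T i)⁻¹ ^ p.totalDegree ∈ Algebra.adjoin F S :=
    Algebra.subset_adjoin (mem_insert_of_mem _ ⟨p, hp, rfl⟩)
  have := Pl.ord_unit P.toPlace (h1 _ m1) ((h2 _ m1).2
    ⟨X i ^ p.totalDegree, p, p0, (d _).le, by simp [ne p p0]⟩)
  rw [Pl.ord_mul _ (ne p p0) (pow_ne_zero _ (inv_ne_zero t0)), Pl.ord_pow] at this
  linarith

/-- the place of an irreducible polynomial -/
theorem exists_irr (hK : FF K n) (hy : AlgebraicIndependent F T) {p : MvPolynomial (Fin k) F}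
    (hp : Irreducible p) : ∃ P : Pl K, (∀ q : MvPolynomial (Fin k) F, aeval T q ∈ P.ring) ∧
      ∀ q, q ≠ 0 → (p ∣ q ↔ 0 < P.ord (aeval T q)) := by
  have := (Ideal.span_singleton_prime hp.ne_zero).2 hp.prime
  have e : ∀ q, (hy.aevalEquiv q : K) = aeval T q := hy.algebraMap_aevalEquiv
  have m : ∀ q, hy.aevalEquiv q ∈ (Ideal.span {p}).comap hy.aevalEquiv.symm ↔ p ∣ q := fun q => by
    rw [Ideal.mem_comap, AlgEquiv.symm_apply_apply, Ideal.mem_span_singleton]
  obtain ⟨P, h1, h2⟩ := On.ctr hK (Subalgebra.fg_def.2 ⟨_, finite_range T, rfl⟩)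
    ((Ideal.span {p}).comap hy.aevalEquiv.symm) fun h => hp.ne_zero (by
      simpa [h] using (m p).2 dvd_rfl)
  refine ⟨P, fun q => e q ▸ h1 _ (hy.aevalEquiv q).2, fun q h => ?_⟩
  rw [← m, h2, e, or_iff_right fun k => h (hy (k.trans (map_zero _).symm))]

/-- representatives of the irreducible polynomials -/
def Ir (A : Type) [CommRing A] : Set A := {p | Irreducible p ∧ Quotient.out (Associates.mk p) = p}

theorem Ir.eq {A : Type} [CommRing A] {p q : A} (h : p ∈ Ir A) (h' : q ∈ Ir A) (e : p ∣ q) :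
    p = q := by
  rw [← h.2, ← h'.2, Associates.mk_eq_mk_iff_associated.2 (h.1.associated_of_dvd h'.1 e)]

theorem exists_ir {A : Type} [CommRing A] {p : A} (h : Irreducible p) :
    ∃ q ∈ Ir A, Associated q p := by
  have e : Associates.mk (Quotient.out (Associates.mk p)) = Associates.mk p := Quotient.out_eq _
  have := Associates.mk_eq_mk_iff_associated.1 e
  exact ⟨_, ⟨this.symm.irreducible h, by rw [e]⟩, this⟩

theorem prn_le (hK : FF K n) {L : IntermediateField ℂ K} (hy : AlgebraicIndependent L T)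
    (hg : IntermediateField.adjoin L (range T) = ⊤) :
    Prn K ≤ Submodule.span ℝ ((fun p => dv (aeval T p)) '' Ir (MvPolynomial (Fin k) L)) ⊔
      (Prn L).map (pbL (inc L)) := by
  set V := Submodule.span ℝ ((fun p => dv (aeval T p)) '' Ir (MvPolynomial (Fin k) L)) ⊔
    (Prn L).map (pbL (inc L))
  have ne : ∀ p : MvPolynomial (Fin k) L, p ≠ 0 → aeval T p ≠ 0 := fun p h e =>
    h (hy (e.trans (map_zero _).symm))
  have u : ∀ p : MvPolynomial (Fin k) L, IsUnit p → dv (aeval T p) ∈ V := fun p h => by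
    obtain ⟨c, -, rfl⟩ := isUnit_iff_eq_C_of_isReduced.1 h
    exact Submodule.mem_sup_right ⟨dv c, dv_mem_Prn c, by
      rw [aeval_C]; exact (hK.ok_sub L).pb_dv c⟩
  have a : ∀ p : MvPolynomial (Fin k) L, dv (aeval T p) ∈ V := fun p => by
    induction p using WfDvdMonoid.induction_on_irreducible with
    | zero => simp
    | unit p h => exact u p h
    | mul p i h1 h2 ih =>
      obtain ⟨q, q1, c, rfl⟩ := exists_ir h2
      rw [map_mul, dv_mul (ne _ h2.ne_zero) (ne _ h1), map_mul,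
        dv_mul (ne _ q1.1.ne_zero) (ne _ c.ne_zero)]
      exact add_mem (add_mem (Submodule.mem_sup_left (Submodule.subset_span ⟨q, q1, rfl⟩))
        (u _ c.isUnit)) ih
  refine Submodule.span_le.2 ?_
  rintro _ ⟨z, rfl⟩
  obtain ⟨r, s, rfl⟩ := (IntermediateField.mem_adjoin_range_iff L T z).1 (hg ▸ trivial)
  by_cases h : aeval T r / aeval T s = 0
  · simp [h]
  obtain ⟨h1, h2⟩ := not_or.1 (mt div_eq_zero_iff.2 h)
  rw [dv_div h1 h2]
  exact sub_mem (a r) (a s)

end Pa

theorem hy_apply (x : Fin k → K) (P : Pl K) : hy x P = ∑ i, max 0 (-(P.ord (x i) : ℝ)) := by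
  simp only [hy, mx_pld, Finset.sum_apply, pld_apply]

/-- **PAD** -/
theorem pad : PAD := fun k q K _ _ L T c Z hK _ hi hg hZ h => by
  obtain ⟨_, hx, _, ⟨Y, hY, rfl⟩, rfl⟩ := Submodule.mem_sup.1 (Pa.prn_le hK hi hg hZ)
  obtain ⟨l, hl, rfl⟩ := (Finsupp.mem_span_image_iff_linearCombination ℝ).1 hx
  have hs : ∀ p ∈ l.support, p ∈ Pa.Ir _ := fun p hp => hl hp
  have ev : ∀ w : Pl K, (∀ a, inc L a ∈ w.ring) → 0 ≤ c * hy T w +
      ∑ p ∈ l.support, l p * (w.ord (aeval T p) : ℝ) := fun w hw => by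
    simpa [Finsupp.linearCombination_apply, Finsupp.sum, pbL_apply, Trv.pb hw, dv] using
      h w fun a ha => hw ⟨a, ha⟩
  refine ⟨l.support, l, Y, hY, fun p hp => ⟨(hs p hp).1.ne_zero, ?_⟩, ?_, rfl⟩
  · obtain ⟨P, h1, h2⟩ := Pa.exists_irr hK hi (hs p hp).1
    have := ev P fun a => by simpa using h1 (C a)
    rw [hy_apply, Finset.sum_eq_zero fun i _ => max_eq_left (neg_nonpos.2 (by
        exact_mod_cast Pl.ord_nonneg_of_mem P.toPlace (by simpa using h1 (X i)))), mul_zero,
      zero_add, Finset.sum_eq_single_of_mem p hp fun r hr e => by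
        rw [le_antisymm (not_lt.1 fun k => e (Pa.Ir.eq (hs p hp) (hs r hr)
          ((h2 r (hs r hr).1.ne_zero).2 k)).symm) (Pl.ord_nonneg_of_mem P.toPlace (h1 r))]
        simp] at this
    exact nonneg_of_mul_nonneg_left this
      (by exact_mod_cast (h2 p (hs p hp).1.ne_zero).1 dvd_rfl)
  · cases k with
    | zero =>
      have : ∀ p : MvPolynomial (Fin 0) L, p.totalDegree = 0 := fun p => by
        rw [p.eq_C_of_isEmpty, totalDegree_C]
      simp [this]
    | succ k =>
      obtain ⟨P, e, e0, h1, h2⟩ := Pa.exists_inf hK hi hg 0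
        (l.support.finite_toSet.union (finite_range X))
      have e1 : (0 : ℝ) < e := by exact_mod_cast e0
      have := ev P h1
      rw [hy_apply, Finset.sum_congr rfl fun i _ => show max 0 (-(P.ord (T i) : ℝ)) = e by
          have := h2 (X i) (.inr ⟨i, rfl⟩) (X_ne_zero i)
          rw [aeval_X, totalDegree_X] at this
          rw [this]
          simpa using e0.le,
        Finset.sum_congr rfl fun p hp => show l p * (P.ord (aeval T p) : ℝ) =
            -(e * (l p * p.totalDegree)) by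
          rw [h2 p (.inl hp) (hs p hp).1.ne_zero]; push_cast; ring,
        Finset.sum_neg_distrib, ← Finset.mul_sum, Finset.sum_const, Finset.card_univ,
        Fintype.card_fin, nsmul_eq_mul] at this
      exact le_of_mul_le_mul_left (by linarith) e1

end Vale.Agent.P287D.Tf
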